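import Mathlib

/-!
# S0499 (one-pass Gaussian regression: `T ≥ c d log(1/ε)` when memory `≤ A d²`): the plan.

This is an original proof (not recalled from the literature).  Everything lives in namespace
`Crest.Agent.MS`.  Each file has the paper proof of its statements in its docstrings.

## Overview

Fix a seed.  The learner is then a deterministic chain of labels `q_t ∈ Q` with `|Q| ≤ 2^M (T+2)`,
updated every `B = bB d = 2 (d/64)` samples.  Let `k = kV d = d/4`, and let `V = (X, Xs)` be `k`
*fictitious* Gaussian measurements of `s` independent of everything.  The potential is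
`Φ_t = I(q_t ; s | V)`; for a density `ψ` of `s`, `Phi k ψ = ∫∫ ψ log(ψ / E[ψ | X, Xs])`.

* `Phi_end` (`FibEnd.lean`): if a label pins `s` to a cap of radius `ε` (probability `θ`), then
  `Phi ≥ (2/3)(θ ((d-k-1) log(1/(8ε)) - log 2) - log 2)`.
* `block_main` (`BlockMain.lean`): **one block raises the potential by at most**
  `17 log|Q| / d + 12 D₀(ψ) / d + d`, where `D₀` is the entropy of `ψ` relative to `σ`.
  Since the `B` new samples are far fewer than the `k` fictitious ones, the label can only learn
  what `V` does not reveal at a cost which we bound by the *tuple* trick below.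
* `chain_main` (`Chain.lean`): sum over the blocks: `Pot_m ≤ m (29 log|Q|/d + d)`.
* `Learner.lean`: reduces the learner to chains, plus the two trivial regimes.
* `Crest/Agent/S0499.lean`: puts things together with
  `c = min(1/(10 L₀), 1/(8(A+1)), 1/(184 C), 1/4)`, `C = 29 (A+1) + 1`, `L₀ = 8 (1+C)`.

## The block lemma

`I - J := I(q; s) - I(q; X, Xs)` is the increment (`Phi_increment`).  Partition the sphere using the
block `X₀` by the cube of side `δ` containing `X₀ s` *and* the label `F(X₀, X₀ s)`.  Let `ζ` be this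
partition.  The tuple law `tupP` (`Tuple.lean`): `X₀ ~ γ`, `s₀ ~ ψσ` and `s₁ … s_n` i.i.d. from `ψσ` conditioned
on the cell of `s₀`.  So every `(s_j, X₀)` has the law `ψσ ⊗ γ` (`tup_map_coord`).  The Gibbs
inequality `E log V ≤ E log T`, with `T` the density of the tuple law, gives for the test function
`V = exp(Σ_i logg(q,ss,i)) · P(q) · ∏_j post_q(s_j) · 1{same ζ} / bb(ss)`:

`Σ_i E logg ≤ Σ_j E log(ψ/post_q)(s_j) + n Hz + E log bb + Hlab`   (`block_gibbs`)

where `logg = E_X log kap(X,ss,i)(s_i) - log NN - E_X log A_q(X, X s_i)`, `A_q = fib post_q / fib ψ`,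
`kap` is the truncated Riesz kernel `dist(X(s'-s₀), X U_i)^{-2a}` (with `2a = B-2`) in `ℝ^k`,
`U_i = span(s_j - s₀, j<i)`, `NN` its normaliser, and `bb = ∏_i (t₀/d̃_i)^B` is the Gaussian small ball
probability that `s_0,…,s_n` are in the same cube (`sameCube_le`, `smallBall_mat`), `t₀ = 2δ/√(2π)`,
`d̃_i = max(dist(s_i - s₀, U_i), t₀)`.

The evaluation of the integrals (`BlockEval.lean`, `BlockSelf.lean`) gives
`n (I - J) ≤ Hcond + n Hz + B Σ(log t₀ - L_i) - Σ (K_i - N_i)`, with `L_i = E log d̃_i`,
`K_i = E E_X log kap ≥ -2a (L_i + ½ log(k+1))` (T2, `logkap_lower`) and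
`N_i = E log NN ≤ -a log(k-n-2a) + E log RR_i` (T1, `NN_le_RR`) where
`RR_i = ∫ ψ(s') dist(s' - s₀, U_i)^{-2a} dσ(s')` is the Riesz potential of `ψ` at the prefix flat.

**Key estimate** (`riesz_bound`, `Riesz*.lean`): `E log RR_i ≤ CR - (Hc + B log δ) + η` where
`Hc` is the entropy of the cubes given `X₀` (without the label).  Idea: the flat `s₀ + U_i` is
spanned by points of the same cube, so in the whitened coordinates of `X₀` it is a tiny
neighbourhood of `y₀ = X₀ s₀`, hence the distance to the flat dominates the distance to the point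
`y₀` in whitened coordinates; the kernel `|y|^{-2a}` on `ℝ^B`, `B = 2a+2`, is then integrable, and a
Gibbs inequality on cubes bounds the log potential by the (minus) entropy of the cubes.

Self-bound (`block_self`): with `Ξ = -Σ L_i`, `(l-B) Ξ ≤ n log Cneg + (n+1) D₀ + n (Hz + B log t₀)`.

Arithmetic (`Cells.lean`, `BlockMain.lean`): `Hc + B log δ ≤ (B/2) log(2πe) + 2Bδ` (`Hc_le`),
`Hz - Hc → 0` along `δ = 2^{-j}` (`Hz_sub_Hc_tendsto`), and `a log((k+1)/(k-n-2a)) ≤ d/128`,
`CR ≤ 0.15 d`, for `d ≥ 2^20`.
-/
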